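import Vale.Agent.P302.Defs
import Vale.Agent.P302.Final

namespace Vale.Agent.Results.P302.Unbounded

open Vale.Agent.P302

theorem result (K : ℕ) : ∃ (n : ℕ) (a : Fin n → ℚ), (∀ i, 0 < a i ∧ a i ≤ 1) ∧
    ⌈LP a⌉ + (K : ℤ) < (OPT a : ℤ) :=
  gap_unbounded K

end Vale.Agent.Results.P302.Unbounded
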